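import Vale.Agent.P259.H615.Hyp

/-!
Definitions for the second strong form of the homotopy hypothesis: every `∞`-groupoid comes from a
space, and the fundamental `∞`-groupoid determines the space.
-/

open CategoryTheory

namespace Vale.Agent.P259.Hyp

open StmtB Theta0

variable {K L : Type 1} [Category.{0} K] [Category.{0} L]

/-- The spaces (objects of `K`, weak equivalences `W`) are models for the objects of `L` (weak
equivalences `V`, trivial fibrations `T`) through `P : K ⥤ L`:
* `f` is a weak equivalence if and only if `P f` is one;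
* for every object `G` of `L` there are a space `Y`, a trivial fibration `G' ⟶ G` and a weak
  equivalence `G' ⟶ P Y`;
* if `P Y` and `P Y'` are related by weak equivalences from one `G`, then `Y` and `Y'` are related
  by weak equivalences from one space `Z`;
* every map `h : P Y ⟶ P Y'` comes from a map of spaces `g : Z ⟶ Y'`, for a weak equivalence
  `f : Z ⟶ Y` and a weak equivalence `k : G ⟶ P Z`: one has `k ≫ P f ≫ h = k ≫ P g`. -/
structure IsModelledBy (P : K ⥤ L) (W : MorphismProperty K) (V T : MorphismProperty L) : Prop where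
  detects : ∀ {Y Y' : K} (f : Y ⟶ Y'), W f ↔ V (P.map f)
  models : ∀ G : L, ∃ (Y : K) (G' : L) (p : G' ⟶ G) (q : G' ⟶ P.obj Y), T p ∧ V p ∧ V q
  unique : ∀ {Y Y' : K} {G : L} (f : G ⟶ P.obj Y) (f' : G ⟶ P.obj Y'), V f → V f' →
    ∃ (Z : K) (g : Z ⟶ Y) (g' : Z ⟶ Y'), W g ∧ W g'
  maps : ∀ {Y Y' : K} (h : P.obj Y ⟶ P.obj Y'), ∃ (Z : K) (f : Z ⟶ Y) (g : Z ⟶ Y') (G : L)
    (k : G ⟶ P.obj Z), W f ∧ V k ∧ k ≫ P.map f ≫ h = k ≫ P.map g

end Vale.Agent.P259.Hyp
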