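import Vale.Agent.P259.H413.Defs
import Vale.Agent.P259.H615.Bridge

/-!
Proof of the second strong form.
-/

open CategoryTheory Limits

namespace Vale.Agent.P259.Hyp

open StmtB Theta0

variable {K L : Type 1} [Category.{0} K] [Category.{0} L]

/-- cofibrant replacement in a left semi-model structure -/
lemma exists_cofibrant {W F T : MorphismProperty L} (h : IsSemiModel W F T) (G : L) :
    ∃ (G' : L) (p : G' ⟶ G), Cofibrant T G' ∧ T p ∧ W p := by
  have := h.colim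
  have : HasInitial L := inferInstance
  obtain ⟨Z, i, p, hi, hp, -⟩ := h.fac' (initial.to G)
  refine ⟨Z, p, ?_, hp, ?_⟩
  · intro A B q hq f
    have hl : HasLiftingProperty i q := hi q hq
    have sq : CommSq (initial.to A) i q f := ⟨initialIsInitial.hom_ext _ _⟩
    exact ⟨sq.lift, sq.fac_right⟩
  · rw [← h.inf] at hp
    exact hp.2

lemma isModelledBy {P : K ⥤ L} {W E : MorphismProperty K} {V F T : MorphismProperty L}
    {tK : ℕ → ObjectProperty K} {tL : ℕ → ObjectProperty L} [W.ContainsIdentities]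
    (h : IsHomotopyEquiv P W E tK V F tL) (hs : IsSemiModel V F T) : IsModelledBy P W V T := by
  have hd : ∀ {Y Y' : K} (f : Y ⟶ Y'), W f ↔ V (P.map f) := by
    intro Y Y' f
    rw [← h.hoEq.1]
    exact Iff.rfl
  obtain ⟨Λ, a, ha⟩ := h.quillen.adj
  have ha' : ∀ {X : L}, Cofibrant T X → ∀ (Y : K) (f : Λ.obj X ⟶ Y),
      W f ↔ V (a.homEquiv X Y f) := by
    intro X hX Y f
    refine ha X ?_ Y f
    rw [hs.inf]
    exact hX
  have := hs.two
  have hcomp : ∀ {X Y Z : L} (f : X ⟶ Y) (g : Y ⟶ Z), V f → V g → V (f ≫ g) := fun f g hf hg =>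
    V.comp_mem f g hf hg
  refine ⟨hd, ?_, ?_, ?_⟩
  · intro G
    obtain ⟨G', p, hc, hT, hV⟩ := exists_cofibrant hs G
    exact ⟨Λ.obj G', G', p, a.homEquiv _ _ (𝟙 _), hT, hV, (ha' hc _ _).1 (W.id_mem _)⟩
  · intro Y Y' G f f' hf hf'
    obtain ⟨G', p, hc, hT, hV⟩ := exists_cofibrant hs G
    refine ⟨Λ.obj G', (a.homEquiv _ _).symm (p ≫ f), (a.homEquiv _ _).symm (p ≫ f'), ?_, ?_⟩
    · rw [ha' hc, Equiv.apply_symm_apply]
      exact hcomp _ _ hV hf
    · rw [ha' hc, Equiv.apply_symm_apply]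
      exact hcomp _ _ hV hf'
  · intro Y Y' h'
    obtain ⟨G', p, hc, hT, hV⟩ := exists_cofibrant hs (P.obj Y)
    refine ⟨Λ.obj G', (a.homEquiv _ _).symm p, (a.homEquiv _ _).symm (p ≫ h'), G',
      a.homEquiv _ _ (𝟙 _), ?_, (ha' hc _ _).1 (W.id_mem _), ?_⟩
    · rw [ha' hc, Equiv.apply_symm_apply]
      exact hV
    · have e1 : a.homEquiv G' _ (𝟙 _) ≫ P.map ((a.homEquiv _ _).symm p) = p := by
        rw [← a.homEquiv_naturality_right, Category.id_comp, Equiv.apply_symm_apply]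
      have e2 : a.homEquiv G' _ (𝟙 _) ≫ P.map ((a.homEquiv _ _).symm (p ≫ h')) = p ≫ h' := by
        rw [← a.homEquiv_naturality_right, Category.id_comp, Equiv.apply_symm_apply]
      rw [← Category.assoc, e1, e2]

end Vale.Agent.P259.Hyp

namespace Vale.Agent.P259.Hyp

open StmtB Theta0 CategoryTheory

lemma we_id {K : Type 1} [Category.{0} K] {B : ℕ → K} (d : Bool → ∀ {n}, B n ⟶ B n.succ)
    (c : ∀ {n}, B n ⟶ B 0) (X : K) : we d c (𝟙 X) := by
  refine ⟨fun v => ⟨v, fun w => ?_⟩, fun x n v hv => ⟨v, fun ι => ?_, fun w hw => ?_⟩⟩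
  · simp only [Category.comp_id]
  · have := hv ι
    simpa only [Category.comp_id] using this
  · simp only [Category.comp_id]

instance gwe_containsIdentities {Q : Type} [SmallCategory Q] (J : Glob Q)
    (id : ∀ n, Ext.H ⟨Q, J⟩ (disc n) (disc 0)) : (gwe J id).ContainsIdentities :=
  ⟨fun X => by
    change we (d J) _ ((ι J).map (𝟙 X))
    rw [CategoryTheory.Functor.map_id]
    exact we_id _ _ _⟩

lemma IsGpdEquiv.modelled {Q : Type} [SmallCategory Q] {J : Glob Q} (hJ : IsCoherator ⟨Q, J⟩)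
    {id : ∀ n, Ext.H ⟨Q, J⟩ (disc n) (disc 0)} (hid : IsIdent J id) {K : Type 1} [Category.{0} K]
    {R : K ⥤ Qᵒᵖ ⥤ Type} {W F : MorphismProperty K} {P : ℕ → ObjectProperty K}
    (h : IsGpdEquiv J id R W F P) :
    ∃ R' : K ⥤ Gpd J, R' ⋙ ι J = R ∧ HoEq R' W (gwe J id) ∧
      IsModelledBy R' W (gwe J id) (gtriv J) := by
  obtain ⟨R', e, h⟩ := h
  have : W.ContainsIdentities := by
    refine ⟨fun X => ?_⟩
    rw [← h.hoEq.1]
    change (gwe J id) (R'.map (𝟙 X))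
    rw [CategoryTheory.Functor.map_id]
    exact (gwe J id).id_mem _
  exact ⟨R', e, h.hoEq, isModelledBy h (semiModel J hJ hid)⟩

/-- The second strong form of the homotopy hypothesis. -/
theorem final_models :
    (∃ A, IsCoherator A) ∧
    (∀ {Q : Type} [SmallCategory Q] (J : Glob Q), IsCoherator ⟨Q, J⟩ →
      (∃ F, IsDisc J F) ∧ (∃ id, IsIdent J id) ∧ ∀ F, IsDisc J F → ∀ id, IsIdent J id →
      LocEq (F.op ⋙ coyoneda).flip (Gl J yoneda)
        (we (fun ι {n} => yoneda.map (J.s (.face ι n.lt_succ_self))) fun {n} =>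
          yoneda.map (id n)) ∧
      ∃ P : CompactlyGenerated.{0, 0} ⥤ Gpd J, P ⋙ ι J = (F.op ⋙ coyoneda).flip ∧
        IsModelledBy P wheT (gwe J id) (gtriv J)) ∧
    ∀ {Q Q' : Type} [SmallCategory Q] [SmallCategory Q'] (J : Glob Q) (J' : Glob Q'),
      IsCoherator ⟨Q, J⟩ → IsCoherator ⟨Q', J'⟩ → (∃ T, IsMor J J' T) ∧ ∀ T, IsMor J J' T →
        (∀ F, IsDisc J' F → IsDisc J (T ⋙ F)) ∧
        ∀ id, IsIdent J id → ∀ id', IsIdent J' id' →
        ∃ R : Gpd J' ⥤ Gpd J, R ⋙ ι J = ι J' ⋙ (Functor.whiskeringLeft _ _ _).obj T.op ∧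
          HoEq R (gwe J' id') (gwe J id) ∧ IsModelledBy R (gwe J' id') (gwe J id) (gtriv J) := by
  obtain ⟨h1, h2, h3⟩ := final
  refine ⟨h1, fun {Q} _ J hJ => ?_, fun {Q Q'} _ _ J J' hJ hJ' => ?_⟩
  · obtain ⟨hF, hid, h⟩ := h2 J hJ
    refine ⟨hF, hid, fun F hF id hid => ?_⟩
    obtain ⟨hloc, he⟩ := (h id hid).2 F hF
    refine ⟨hloc, ?_⟩
    obtain ⟨P, e, -, hm⟩ := he.modelled hJ hid
    exact ⟨P, e, hm⟩
  · obtain ⟨hT, h⟩ := h3 J J' hJ hJ'
    refine ⟨hT, fun T hT => ⟨fun F hF => ((h T hT).1 F hF).1, fun id hid id' hid' => ?_⟩⟩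
    exact ((h T hT).2 id hid id' hid').modelled hJ hid

end Vale.Agent.P259.Hyp
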